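import Vale.Agent.P025.R2.H497.Final

/-! P025 (7.3), G-BRANCH: all statements are proved in `Branch.lean` and `Final.lean`. -/
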